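import Vale.Agent.P216.H941S.Tri4
import Vale.Agent.P216.Bor.LocFinal
import Vale.Agent.P216.AS.End707
import Vale.Agent.P216.H467E.Two

/-!
# Localisation at `p = 2` for a `GSys`: the cochains of the fixed set (block LOC2b)

The group is `Z/4`, generated by `S.rot 4`; the fixed set of its square in `X t` is
`Fix (X t) (rot 4)^[2] = W.ψ '' X (t / 2)`.

* `Sym.nm_fix2`, `Sym.A_fix2` : `nm` and `∑ i g ^ i` vanish on the fixed set (characteristic two);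
* `GSys.Two.tri4`, `tri4R` : the condition `Tri4` for `X t` and for `(X t, X s)`;
* `GSys.Two.fixMap`, `fixMapR` : restriction to the fixed set and pull back by `ψ`.
-/

open Set Topology
open Module (finrank)

namespace Vale.Agent.P216.AS.Sym

open Loc

section

variable {E : Type} [PseudoMetricSpace E] {k : Type} [Field k] {I : Type} (Y : Sym E k I 4)

/-- value of `∑ b i g ^ i` on tuples fixed by `g ^ 2` -/
theorem sum4_apply (b : ℕ → k) {n : ℕ} (c : (ASK E k).K n) {x : Fin (n + 1) → E}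
    (hx : ∀ i, Y.g^[2] (x i) = x i) :
    (∑ i ∈ Finset.range 4, b i • (Y.gK n ^ i) c : (Fin (n + 1) → E) → k) x =
      (b 0 + b 2) * c x + (b 1 + b 3) * c (Y.g ∘ x) := by
  have h2 : Y.g^[2] ∘ x = x := funext hx
  have h3 : Y.g^[3] ∘ x = Y.g ∘ x := by
    funext i
    change Y.g^[3] (x i) = Y.g (x i)
    rw [Function.iterate_succ_apply' Y.g 2, hx i]
  have h1 : Y.g^[1] ∘ x = Y.g ∘ x := by rw [Function.iterate_one]
  have key : ∀ i, ((Y.gK n ^ i) c : (Fin (n + 1) → E) → k) x = c (Y.g^[i] ∘ x) := by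
    intro i
    rw [gK, pbK_pow]
    rfl
  rw [Finset.sum_apply]
  simp only [Pi.smul_apply, smul_eq_mul, key, Finset.sum_range_succ, Finset.sum_range_zero,
    h1, h2, h3, Function.iterate_zero, Function.id_comp]
  ring

theorem nm_apply {n : ℕ} (c : (ASK E k).K n) :
    Y.gcx.nm n c = ∑ i ∈ Finset.range 4, (1 : k) • (Y.gK n ^ i) c := by
  change H609.nm 4 (Y.gK n) c = _
  unfold H609.nm
  rw [LinearMap.sum_apply]
  exact Finset.sum_congr rfl fun i _ => (one_smul k _).symm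

end

section

variable {E : Type} [MetricSpace E] {k : Type} [Field k] {I : Type} (Y : Sym E k I 4)

/-- the fixed set of the square of the rotation -/
abbrev Fix2 (X : Set E) : Set E := Fix X Y.g^[2]

variable {Y} {X : Set E}

theorem mem_Fix2 {x : E} : x ∈ Y.Fix2 X ↔ x ∈ X ∧ Y.g (Y.g x) = x := Iff.rfl

theorem Fix2_sub : Y.Fix2 X ⊆ X := fun _ h => h.1

theorem Fix2_mono {X' : Set E} (h : X ⊆ X') : Y.Fix2 X ⊆ Y.Fix2 X' := fun _ hx => ⟨h hx.1, hx.2⟩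

theorem Fix2_g (h : MapsTo Y.g X X) : MapsTo Y.g (Y.Fix2 X) (Y.Fix2 X) := fun x hx =>
  ⟨h hx.1, congrArg Y.g hx.2⟩

/-- a symmetry commuting with `g` preserves the fixed set -/
theorem Fix2_of_comm {f : E → E} (h : MapsTo f X X) (hc : ∀ x ∈ X, f (Y.g x) = Y.g (f x))
    (hg : MapsTo Y.g X X) : MapsTo f (Y.Fix2 X) (Y.Fix2 X) := fun x hx => by
  refine ⟨h hx.1, ?_⟩
  have h1 : Y.g (Y.g x) = x := hx.2
  change Y.g (Y.g (f x)) = f x
  rw [← hc x hx.1, ← hc _ (hg hx.1), h1]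

/-- the norm vanishes on the fixed set, in characteristic two -/
theorem nm_fix2 (h2 : (2 : k) = 0) (h : Y.Good X) {n : ℕ} {x : (ASK E k).K n}
    (hx : x ∈ (Cc Y.a Y.χ X).S n) : Y.gcx.nm n x ∈ (Zr Y.a Y.χ X (Y.Fix2 X)).S n := by
  refine ⟨(Sym.stable_Cc h).nm_mem n x hx, 1, one_pos, fun y hy => ?_⟩
  rw [nm_apply, sum4_apply Y (fun _ => (1 : k)) x fun i => (hy.1 i).2]
  have : (1 : k) + 1 = 0 := by rw [one_add_one_eq_two, h2]
  rw [this, zero_mul, zero_mul, add_zero]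

/-- `A = ∑ i g ^ i` vanishes on the fixed set, in characteristic two -/
theorem A_fix2 (h2 : (2 : k) = 0) (h : Y.Good X) {n : ℕ} {x : (ASK E k).K n}
    (hx : x ∈ (Cc Y.a Y.χ X).S n) :
    (∑ i ∈ Finset.range 4, (i : k) • (Y.gK n ^ i) x) ∈ (Zr Y.a Y.χ X (Y.Fix2 X)).S n := by
  refine ⟨?_, 1, one_pos, fun y hy => ?_⟩
  · have hp : ∀ i, (Y.gK n ^ i) x ∈ (Cc Y.a Y.χ X).S n := by
      intro i
      induction i with
      | zero => exact hx
      | succ i ih => rw [pow_succ']; exact (Sym.stable_Cc h).g_mem n _ ih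
    exact Submodule.sum_mem ((Cc Y.a Y.χ X).S n) fun i _ => Submodule.smul_mem _ _ (hp i)
  · rw [sum4_apply Y (fun i => (i : k)) x fun i => (hy.1 i).2]
    have h3 : ((0 : ℕ) : k) + ((2 : ℕ) : k) = 0 := by push_cast; rw [h2, add_zero]
    have h4 : ((1 : ℕ) : k) + ((3 : ℕ) : k) = 0 := by
      have : ((1 : ℕ) : k) + ((3 : ℕ) : k) = 2 * 2 := by push_cast; ring
      rw [this, h2, zero_mul]
    rw [h3, h4, zero_mul, zero_mul, add_zero]

/-- **The condition `Tri4` for `X`.** -/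
theorem tri4 (h2 : (2 : k) = 0) (h : Y.Good X) {D : DV.Circ Y.gcx}
    (hD : ∀ n x, D.A n x = ∑ i ∈ Finset.range 4, (i : k) • (Y.gK n ^ i) x)
    (hS : D.St (Cc Y.a Y.χ X)) (hA : D.St (Zr Y.a Y.χ X (Y.Fix2 X))) :
    H941S.Tri4 D (Cc Y.a Y.χ X) (Zr Y.a Y.χ X (Y.Fix2 X)) where
  le := Zr_le_Cc
  hS := hS
  hA := hA
  nm_mem _ _ hx := nm_fix2 h2 h hx
  A_mem n x hx := by rw [hD]; exact A_fix2 h2 h hx

/-- **The condition `Tri4` for `(X, B)`.** -/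
theorem tri4R (h2 : (2 : k) = 0) (h : Y.Good X) {D : DV.Circ Y.gcx}
    (hD : ∀ n x, D.A n x = ∑ i ∈ Finset.range 4, (i : k) • (Y.gK n ^ i) x)
    {B : Set E} (hB : B ⊆ X) (hS : D.St (Zr Y.a Y.χ X (Y.Fix2 B)))
    (hA : D.St (Zr Y.a Y.χ X (Y.Fix2 X))) :
    H941S.Tri4 D (Zr Y.a Y.χ X (Y.Fix2 B)) (Zr Y.a Y.χ X (Y.Fix2 X)) where
  le := Zr_anti le_rfl (Fix2_mono hB)
  hS := hS
  hA := hA
  nm_mem _ _ hx := nm_fix2 h2 h (Zr_le_Cc _ hx)
  A_mem n x hx := by rw [hD]; exact A_fix2 h2 h (Zr_le_Cc _ hx)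

end

end Vale.Agent.P216.AS.Sym

namespace Vale.Agent.P216.GSys.Two

open AS H609 Loc H941 H941S

variable {Λ : Type} [MetricSpace Λ] {S : GSys Λ} (W : S.Two)

section

variable (k : Type) [Field k]

/-- the `Sym` of `S` for the group `Z/4` -/
abbrev Y4 (S : GSys Λ) (k : Type) [Field k] : Sym Λ k Unit 4 := S.sym k 4 (by norm_num)

/-- the fixed set of the square of the rotation by `1 / 4` in `X t` -/
abbrev F2 (S : GSys Λ) (t : ℝ) : Set Λ := Fix (S.X t) (S.rot 4)^[2]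

theorem F2_sub (S : GSys Λ) (t : ℝ) : F2 S t ⊆ S.X t := fun _ h => h.1

theorem F2_mono (S : GSys Λ) {s t : ℝ} (h : s ≤ t) : F2 S s ⊆ F2 S t :=
  fun _ hx => ⟨S.mono s t h hx.1, hx.2⟩

/-- cochains on `X t` vanishing on the fixed set -/
abbrev A4 (S : GSys Λ) (k : Type) [Field k] (t : ℝ) : AS.Sub (AS.ASK Λ k) :=
  AS.Zr (fun _ : Unit => S.τ) (fun _ : Unit => (-1 : k)) (S.X t) (F2 S t)

/-- cochains on `X t` vanishing on the fixed set of `X s` -/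
abbrev S4 (S : GSys Λ) (k : Type) [Field k] (t s : ℝ) : AS.Sub (AS.ASK Λ k) :=
  AS.Zr (fun _ : Unit => S.τ) (fun _ : Unit => (-1 : k)) (S.X t) (F2 S s)

theorem CT_le_A4 (t : ℝ) : S.CT k t ≤ A4 S k t := Zr_anti le_rfl (F2_sub S t)

theorem A4_le_CS (t : ℝ) : A4 S k t ≤ S.CS k t := Zr_le_Cc

end

/-! In the following `r = t / 2` and `q = s / 2`. -/

theorem image_F2 {r t : ℝ} (hr : 2 * r = t) (h0 : 0 ≤ r) : W.ψ '' S.X r = F2 S t := by
  rw [W.ψ_image r h0, hr]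
  ext x
  constructor
  · rintro ⟨h1, h2⟩
    refine ⟨h1, ?_⟩
    change S.rot 4 (S.rot 4 x) = x
    rw [W.rot42, h2]
  · rintro ⟨h1, h2⟩
    refine ⟨h1, ?_⟩
    rw [← W.rot42]
    exact h2

theorem mapsTo_F2 {r t : ℝ} (hr : 2 * r = t) (h0 : 0 ≤ r) : MapsTo W.ψ (S.X r) (F2 S t) :=
  fun x hx => by
    rw [← W.image_F2 hr h0]
    exact mem_image_of_mem _ hx

/-- `ψ : X (t / 2) → X t` -/
theorem isMapX {r t : ℝ} (hr : 2 * r = t) (h0 : 0 ≤ r) :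
    IsMap (fun _ : Unit => S.τ) (fun _ : Unit => S.τ) (S.X r) (S.X t) W.ψ :=
  IsMap.of_continuousOn (S.compact _) (W.ψ_cont r h0)
    (fun x hx => F2_sub S t (W.mapsTo_F2 hr h0 hx)) fun _ x _ => W.ψ_τ x

/-- `ψ : X (t / 2) → Fix` -/
theorem isMapF {r t : ℝ} (hr : 2 * r = t) (h0 : 0 ≤ r) :
    IsMap (fun _ : Unit => S.τ) (fun _ : Unit => S.τ) (S.X r) (F2 S t) W.ψ :=
  (W.isMapX hr h0).mono Subset.rfl (W.mapsTo_F2 hr h0)

section

variable (k : Type) [Field k]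

theorem isMorA {r t : ℝ} (hr : 2 * r = t) (h0 : 0 ≤ r) :
    IsMor (S.CS k t) (A4 S k t) (S.CS k r) (S.CT k r) (pbK k W.ψ) :=
  (W.isMapX hr h0).isMor_Cc le_rfl (W.mapsTo_F2 hr h0)

/-- `r = t / 2`, `q = s / 2` -/
theorem isMorR {q r s t : ℝ} (hq : 2 * q = s) (hr : 2 * r = t) (h0 : 0 ≤ q) (h : q ≤ r) :
    IsMor (S4 S k t s) (A4 S k t)
      (AS.Zr (fun _ : Unit => S.τ) (fun _ : Unit => (-1 : k)) (S.X r) (S.X q))
      (S.CT k r) (pbK k W.ψ) :=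
  (W.isMapX hr (h0.trans h)).isMor_Zr le_rfl (W.mapsTo_F2 hr (h0.trans h))
    (S.mono q r h) (W.mapsTo_F2 hq h0)

/-- The cohomology of the fixed set is that of `X (t / 2)`. -/
def fixMap {r t : ℝ} (hr : 2 * r = t) (h0 : 0 ≤ r) (j : ℕ) :
    H (S.CS k t) (A4 S k t) j →ₗ[k] S.V k r j :=
  Hmap (W.isMorA k hr h0) j

/-- relative version -/
def fixMapR {q r s t : ℝ} (hq : 2 * q = s) (hr : 2 * r = t) (h0 : 0 ≤ q) (h : q ≤ r) (j : ℕ) :
    H (S4 S k t s) (A4 S k t) j →ₗ[k]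
      H (AS.Zr (fun _ : Unit => S.τ) (fun _ : Unit => (-1 : k)) (S.X r) (S.X q)) (S.CT k r) j :=
  Hmap (W.isMorR k hq hr h0 h) j

theorem fixMap_bijective {r t : ℝ} (hr : 2 * r = t) (h0 : 0 ≤ r) (j : ℕ) :
    Function.Bijective (W.fixMap k hr h0 j) := by
  have hτ : MapsTo S.τ (F2 S t) (F2 S t) :=
    Sym.Fix2_of_comm (Y := Y4 S k) (S.τ_mem t) (fun x _ => S.τ_rot 4 x) (S.rot_mem 4 t)
  have h1 := H985.quot_bijective (k := k) (a := fun _ : Unit => S.τ)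
    (χ := fun _ : Unit => (-1 : k)) (X := S.X t) (A := F2 S t) (F2_sub S t)
    (fun _ x _ => inv_of S.τ_τ hτ () x) j
  have h3 := pull_bijective (χ := fun _ : Unit => (-1 : k)) (S.compact _)
    (W.ψ_cont r h0) (W.ψ_inj r h0) (W.image_F2 hr h0)
    (fun _ => S.τ_mem _) (W.isMapF hr h0) j
  have e : (W.fixMap k hr h0 j : H (S.CS k t) (A4 S k t) j → S.V k r j) =
      (pull (fun _ : Unit => (-1 : k)) (W.isMapF hr h0) j) ∘
        (Hinc (Cc_anti (F2_sub S t)) (Zr_anti (F2_sub S t) le_rfl) j) := by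
    funext x
    obtain ⟨c, hc, rfl⟩ := H.exists_mk x
    rfl
  rw [e]
  exact h3.comp h1

/-- the relative and the absolute maps are compatible with `H (X, B) → H X` -/
theorem fixMapR_j {q r s t : ℝ} (hq : 2 * q = s) (hr : 2 * r = t) (h0 : 0 ≤ q) (h : q ≤ r)
    (j : ℕ) (x : H (S4 S k t s) (A4 S k t) j) :
    W.fixMap k hr (h0.trans h) j (Hinc Zr_le_Cc le_rfl j x) =
      Hinc Zr_le_Cc le_rfl j (W.fixMapR k hq hr h0 h j x) := by
  obtain ⟨c, hc, rfl⟩ := H.exists_mk x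
  rfl

/-- naturality of `fixMap` -/
theorem fixMap_res {q r s t : ℝ} (hq : 2 * q = s) (hr : 2 * r = t) (h0 : 0 ≤ q) (h : q ≤ r)
    (h' : s ≤ t) (j : ℕ) (x : H (S.CS k t) (A4 S k t) j) :
    W.fixMap k hq h0 j (Hinc (Cc_anti (S.mono s t h')) (Zr_anti (S.mono s t h') (F2_mono S h'))
      j x) = AS.res (S.mono q r h) j (W.fixMap k hr (h0.trans h) j x) := by
  obtain ⟨c, hc, rfl⟩ := H.exists_mk x
  rfl

end

/-! ### The structure `Loc` -/

section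

variable {k : Type} [Field k] (h2 : (2 : k) = 0) {D : DV.Circ (S.sym k 4 (by norm_num)).gcx}
  (hD : ∀ n x, D.A n x = ∑ i ∈ Finset.range 4, (i : k) • ((Y4 S k).gK n ^ i) x)

include h2 hD in
theorem triA {t : ℝ} (hS : D.St (S.CS k t)) (hA : D.St (A4 S k t)) :
    Tri4 D (S.CS k t) (A4 S k t) :=
  Sym.tri4 h2 (S.good k 4 (by norm_num) t) hD hS hA

include h2 hD in
theorem triR {s t : ℝ} (h : s ≤ t) (hS : D.St (S4 S k t s)) (hA : D.St (A4 S k t)) :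
    Tri4 D (S4 S k t s) (A4 S k t) :=
  Sym.tri4R h2 (S.good k 4 (by norm_num) t) hD (S.mono s t h) hS hA

/-- **Localisation at `p = 2`**: the structure `Loc` (`r = t / 2`). -/
noncomputable def loc4 {r t : ℝ} (hr : 2 * r = t) (h0 : 0 ≤ r)
    (hP : D.PSt (S.P k 4 (by norm_num) t)) (hA : D.St (A4 S k t))
    (hu : UTors (S.sym k 4 (by norm_num)).gcx (A4 S k t) (S.CT k t) hA.toStable
      (S.P k 4 (by norm_num) t).hT)
    (hfin : ∀ j, Module.Finite k (S.V k r j))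
    (htop : ∃ N, ∀ j ≥ N, Subsingleton (S.V k t j))
    (htop' : ∃ N, ∀ j ≥ N, Subsingleton (S.V k r j)) :
    T695.Loc k (fun n => hP.F n) (fun j => S.V k r j) hP.gys.u :=
  locCongr (Tri4.loc0 (P := S.P k 4 (by norm_num) t) (triA h2 hD hP.S hA) (CT_le_A4 k t) hP hu
      htop
      (fun j => Module.Finite.equiv
        (LinearEquiv.ofBijective _ (W.fixMap_bijective k hr h0 j)).symm)
      (by
        obtain ⟨N, hN⟩ := htop'
        exact ⟨N, fun j hj => by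
          have := hN j hj
          exact (LinearEquiv.ofBijective _ (W.fixMap_bijective k hr h0 j)).toEquiv.subsingleton⟩))
    (fun j => W.fixMap k hr h0 j) (fun j => W.fixMap_bijective k hr h0 j)

theorem loc4_ℓ {r t : ℝ} (hr : 2 * r = t) (h0 : 0 ≤ r)
    (hP : D.PSt (S.P k 4 (by norm_num) t)) (hA : D.St (A4 S k t))
    (hu : UTors (S.sym k 4 (by norm_num)).gcx (A4 S k t) (S.CT k t) hA.toStable
      (S.P k 4 (by norm_num) t).hT)
    (hfin : ∀ j, Module.Finite k (S.V k r j))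
    (htop : ∃ N, ∀ j ≥ N, Subsingleton (S.V k t j))
    (htop' : ∃ N, ∀ j ≥ N, Subsingleton (S.V k r j)) (e j : ℕ) (x : hP.F e) :
    (W.loc4 h2 hD hr h0 hP hA hu hfin htop htop').ℓ e j x =
      W.fixMap k hr h0 j ((triA h2 hD hP.S hA).ell (P := S.P k 4 (by norm_num) t) le_rfl
        (CT_le_A4 k t) hP e j x) := rfl

/-- **Naturality** in the level. -/
theorem loc4_res {q r s t : ℝ} (hq : 2 * q = s) (hr : 2 * r = t) (h0 : 0 ≤ q) (h : q ≤ r)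
    (h' : s ≤ t) (hP : D.PSt (S.P k 4 (by norm_num) t)) (hA : D.St (A4 S k t))
    (hu : UTors (S.sym k 4 (by norm_num)).gcx (A4 S k t) (S.CT k t) hA.toStable
      (S.P k 4 (by norm_num) t).hT)
    (hP' : D.PSt (S.P k 4 (by norm_num) s)) (hA' : D.St (A4 S k s))
    (hu' : UTors (S.sym k 4 (by norm_num)).gcx (A4 S k s) (S.CT k s) hA'.toStable
      (S.P k 4 (by norm_num) s).hT)
    (hfin : ∀ j, Module.Finite k (S.V k r j))
    (htop : ∃ N, ∀ j ≥ N, Subsingleton (S.V k t j))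
    (htop' : ∃ N, ∀ j ≥ N, Subsingleton (S.V k r j))
    (hfins : ∀ j, Module.Finite k (S.V k q j))
    (htops : ∃ N, ∀ j ≥ N, Subsingleton (S.V k s j))
    (htops' : ∃ N, ∀ j ≥ N, Subsingleton (S.V k q j)) (e j : ℕ) (x : hP.F e) :
    (W.loc4 h2 hD hq h0 hP' hA' hu' hfins htops htops').ℓ e j
        (DV.Circ.PSt.resF hP hP' (Cc_anti (S.mono s t h'))
          (Zr_anti (S.mono s t h') (S.mono s t h')) e x) =
      AS.res (S.mono q r h) j
        ((W.loc4 h2 hD hr (h0.trans h) hP hA hu hfin htop htop').ℓ e j x) := by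
  rw [loc4_ℓ, loc4_ℓ]
  have h1 := (triA h2 hD hP.S hA).ell_resF (P := S.P k 4 (by norm_num) t) le_rfl (CT_le_A4 k t) hP
    (triA h2 hD hP'.S hA') (Q := S.P k 4 (by norm_num) s) le_rfl (CT_le_A4 k s) hP'
    (Cc_anti (S.mono s t h')) (Zr_anti (S.mono s t h') (S.mono s t h'))
    (Cc_anti (S.mono s t h')) (Zr_anti (S.mono s t h') (F2_mono S h')) e j x
  rw [h1]
  exact W.fixMap_res k hq hr h0 h h' j _

/-! ### The relative localisation -/

theorem Q_le_S4 {s t : ℝ} (h : s ≤ t) : (S.Q k 4 (by norm_num) h).S ≤ S4 S k t s :=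
  Zr_anti le_rfl (F2_sub S s)

theorem Q_le_A4 {s t : ℝ} (h : s ≤ t) : (S.Q k 4 (by norm_num) h).T ≤ A4 S k t :=
  Zr_anti le_rfl (F2_sub S t)

/-- The localisation `F^e(X_t, X_s) → H^j(Fix X_t, Fix X_s)`. -/
noncomputable def ellR {s t : ℝ} (h' : s ≤ t) (hS4 : D.St (S4 S k t s)) (hA : D.St (A4 S k t))
    (hQ : D.PSt (S.Q k 4 (by norm_num) h')) (e j : ℕ) :
    hQ.F e →ₗ[k] H (S4 S k t s) (A4 S k t) j :=
  (triR h2 hD h' hS4 hA).ell (Q_le_S4 h') (Q_le_A4 h') hQ e j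

/-- **The localisation** `F^e(X_t, X_s) → H^j(X_{t/2}, X_{s/2})`. -/
noncomputable def locR {q r s t : ℝ} (hq : 2 * q = s) (hr : 2 * r = t) (h0 : 0 ≤ q) (h : q ≤ r)
    (h' : s ≤ t) (hS4 : D.St (S4 S k t s)) (hA : D.St (A4 S k t))
    (hQ : D.PSt (S.Q k 4 (by norm_num) h')) (e j : ℕ) :
    hQ.F e →ₗ[k] (S.Q k 4 (by norm_num) h).HH j :=
  W.fixMapR k hq hr h0 h j ∘ₗ ellR h2 hD h' hS4 hA hQ e j

/-- the field `ℓ_j` of `Loc2` -/
theorem locR_j {q r s t : ℝ} (hq : 2 * q = s) (hr : 2 * r = t) (h0 : 0 ≤ q) (h : q ≤ r)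
    (h' : s ≤ t) (hS4 : D.St (S4 S k t s)) (hA : D.St (A4 S k t))
    (hQ : D.PSt (S.Q k 4 (by norm_num) h')) (hP : D.PSt (S.P k 4 (by norm_num) t))
    (hu : UTors (S.sym k 4 (by norm_num)).gcx (A4 S k t) (S.CT k t) hA.toStable
      (S.P k 4 (by norm_num) t).hT)
    (hfin : ∀ j, Module.Finite k (S.V k r j))
    (htop : ∃ N, ∀ j ≥ N, Subsingleton (S.V k t j))
    (htop' : ∃ N, ∀ j ≥ N, Subsingleton (S.V k r j)) (e j : ℕ) (x : hQ.F e) :
    (W.loc4 h2 hD hr (h0.trans h) hP hA hu hfin htop htop').ℓ e j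
        (DV.Circ.PSt.resF hQ hP Zr_le_Cc le_rfl e x) =
      Hinc Zr_le_Cc le_rfl j (W.locR h2 hD hq hr h0 h h' hS4 hA hQ e j x) := by
  rw [loc4_ℓ]
  have h1 := (triR h2 hD h' hS4 hA).ell_resF (P := S.Q k 4 (by norm_num) h') (Q_le_S4 h')
    (Q_le_A4 h') hQ (triA h2 hD hP.S hA) (Q := S.P k 4 (by norm_num) t) le_rfl (CT_le_A4 k t) hP
    Zr_le_Cc le_rfl Zr_le_Cc le_rfl e j x
  rw [h1]
  exact W.fixMapR_j k hq hr h0 h j _

/-- the localisation to the fixed set commutes with every morphism of the pair `(X_t, X_s)`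
which preserves the fixed sets: no compatibility with the circle is needed -/
theorem ellR_mapF {s t : ℝ} (h' : s ≤ t) (hS4 : D.St (S4 S k t s)) (hA : D.St (A4 S k t))
    (hQ : D.PSt (S.Q k 4 (by norm_num) h')) {φ : ∀ n, (ASK Λ k).K n →ₗ[k] (ASK Λ k).K n}
    (hφ : IsGMor (S.Q k 4 (by norm_num) h') (S.Q k 4 (by norm_num) h') φ)
    (hφ' : IsMor (S4 S k t s) (A4 S k t) (S4 S k t s) (A4 S k t) φ)
    (hAφ : ∀ {n x}, x ∈ (S.Q k 4 (by norm_num) h').S.S n →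
      D.A n (φ n x) - φ n (D.A n x) ∈ (S.Q k 4 (by norm_num) h').T.S n) (e j : ℕ) (x : hQ.F e) :
    ellR h2 hD h' hS4 hA hQ e j (DV.Circ.PSt.mapF hQ hQ hφ hAφ e x) =
      Hmap hφ' j (ellR h2 hD h' hS4 hA hQ e j x) :=
  (triR h2 hD h' hS4 hA).ell_mapF (Q_le_S4 h') (Q_le_A4 h') hQ (triR h2 hD h' hS4 hA)
    (Q_le_S4 h') (Q_le_A4 h') hQ hφ hφ' hAφ e j x

/-- **the field `ℓ_e` of `Loc2`**: if `φ` on `(X_t, X_s)` induces `φ'` on `(X_{t/2}, X_{s/2})` -/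
theorem locR_mapF {q r s t : ℝ} (hq : 2 * q = s) (hr : 2 * r = t) (h0 : 0 ≤ q) (h : q ≤ r)
    (h' : s ≤ t) (hS4 : D.St (S4 S k t s)) (hA : D.St (A4 S k t))
    (hQ : D.PSt (S.Q k 4 (by norm_num) h')) {φ : ∀ n, (ASK Λ k).K n →ₗ[k] (ASK Λ k).K n}
    (hφ : IsGMor (S.Q k 4 (by norm_num) h') (S.Q k 4 (by norm_num) h') φ)
    (hφ' : IsMor (S4 S k t s) (A4 S k t) (S4 S k t s) (A4 S k t) φ)
    (hAφ : ∀ {n x}, x ∈ (S.Q k 4 (by norm_num) h').S.S n →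
      D.A n (φ n x) - φ n (D.A n x) ∈ (S.Q k 4 (by norm_num) h').T.S n) (j : ℕ)
    {ε : (S.Q k 4 (by norm_num) h).HH j →ₗ[k] (S.Q k 4 (by norm_num) h).HH j}
    (hε : ∀ y : H (S4 S k t s) (A4 S k t) j, W.fixMapR k hq hr h0 h j (Hmap hφ' j y) =
      ε (W.fixMapR k hq hr h0 h j y)) (e : ℕ) (x : hQ.F e) :
    W.locR h2 hD hq hr h0 h h' hS4 hA hQ e j (DV.Circ.PSt.mapF hQ hQ hφ hAφ e x) =
      ε (W.locR h2 hD hq hr h0 h h' hS4 hA hQ e j x) := by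
  change W.fixMapR k hq hr h0 h j (ellR h2 hD h' hS4 hA hQ e j _) = _
  rw [ellR_mapF h2 hD h' hS4 hA hQ hφ hφ' hAφ]
  exact hε _

end

end Vale.Agent.P216.GSys.Two
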