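import Vale.Agent.P216.DV706.Nat
import Vale.Agent.P216.H941.LocFF
import Vale.Agent.P216.T695.Iface

/-!
# `S¹`-localisation at `p = 2`, algebra (block LOC2b)

Frame: `G` = complex with `Z/4`-action, `X : Circ G`, field of characteristic two (but only
`nm = 0`, `A = 0` on `S / A` is used, the characteristic does not appear).
`S / A` computes the cohomology of the fixed set of `g ^ 2`: `Tri4 X S A`.

* `Tri4.ev n j : P.FF n → H S A j` : the component `j`, `n + j` even (`0` otherwise);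
* `Tri4.ev_V : ev (n + 1) j (V x) = 0`, `Tri4.V_eq_zero` : on `S / A`, if all `ev n j x = 0` then
  `V x = 0`;
* `Tri4.ell e j : F e → H S A j`, `ell e j (V y) = ev e j y`;
* naturality, and the structure `T695.Loc`.
-/

open Module

namespace Vale.Agent.P216.H941S

open Vale.Agent.P216.AS Vale.Agent.P216.H609 Vale.Agent.P216.DV Vale.Agent.P216.H941

variable {k : Type} [Field k] {C C' : Amb k} {G : GCx C} {G' : GCx C'}

/-- `S / A`: on this quotient the norm and the operator `A` vanish. -/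
structure Tri4 (X : Circ G) (S A : Sub C) : Prop where
  le : A ≤ S
  hS : X.St S
  hA : X.St A
  nm_mem : ∀ n x, x ∈ S.S n → G.nm n x ∈ A.S n
  A_mem : ∀ n x, x ∈ S.S n → X.A n x ∈ A.S n

namespace Tri4

variable {X : Circ G} {S A : Sub C}

/-- restriction of the condition to a smaller `S` -/
theorem mono {S' : Sub C} (h : Tri4 X S A) (hS' : X.St S') (h1 : S' ≤ S) (h2 : A ≤ S') :
    Tri4 X S' A where
  le := h2
  hS := hS'
  hA := h.hA
  nm_mem n x hx := h.nm_mem n x (h1 n hx)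
  A_mem n x hx := h.A_mem n x (h1 n hx)

/-- the pair `S / A` -/
abbrev pr (h : Tri4 X S A) : G.Pair := ⟨S, A, h.hS.toStable, h.hA.toStable, h.le⟩

theorem pst (h : Tri4 X S A) : X.PSt h.pr := ⟨h.hS, h.hA⟩

theorem θ_mem (h : Tri4 X S A) {i : ℕ} (hi : i % 2 = 0) {n : ℕ} {x : C.K n} (hx : x ∈ S.S n) :
    G.θ i n x ∈ A.S n := by
  rw [G.θ_even hi]
  exact h.nm_mem n x hx

variable (h : Tri4 X S A) {P : G.Pair} (hPS : P.S ≤ S) (hPT : P.T ≤ A)

include hPS in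
omit h in
theorem memS' {n : ℕ} {c : ∀ q, C.K q} (hc : c ∈ (G.TotS P.S P.hS).S n) (q : ℕ) :
    c q ∈ S.S q := hPS q (memS hc q)

include h hPS hPT in
theorem ev_Zc {n j : ℕ} (hj : (n + j) % 2 = 0) {c : ∀ q, C.K q}
    (hc : c ∈ Zc (G.TotS P.S P.hS) (G.TotS P.T P.hT) n) : c j ∈ Zc S A j := by
  obtain ⟨h1, h2⟩ := mem_Zc.1 hc
  refine mem_Zc.2 ⟨memS' hPS h1 j, ?_⟩
  have h3 := hPT _ (memS h2 (j + 1))
  change G.D n c (j + 1) ∈ _ at h3
  rw [GCx.D_succ] at h3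
  have h4 := Submodule.sub_mem _ h3 (Submodule.smul_mem _ ((-1 : k) ^ (j + 1))
    (h.θ_mem (i := n + 1 + (j + 1)) (by omega) (memS' hPS h1 (j + 1))))
  rwa [add_sub_cancel_right] at h4

include h hPS hPT in
theorem ev_Bc {n j : ℕ} (hj : (n + j) % 2 = 0) {c : ∀ q, C.K q}
    (hc : c ∈ Bc (G.TotS P.S P.hS) (G.TotS P.T P.hT) n) : c j ∈ Bc S A j := by
  obtain ⟨t, ht, w, hw, rfl⟩ := mem_Bc.1 hc
  refine Submodule.add_mem _ (T_le_Bc _ _ _ (hPT _ (memS ht j))) ?_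
  cases n with
  | zero =>
    rw [mem_im_zero.1 hw]
    exact Submodule.zero_mem _
  | succ n =>
    obtain ⟨y, hy, rfl⟩ := mem_im_succ.1 hw
    change G.D n y j ∈ _
    cases j with
    | zero => exact T_le_Bc _ _ _ (h.θ_mem (by omega) (memS' hPS hy 0))
    | succ j =>
      rw [GCx.D_succ]
      exact Submodule.add_mem _ (d_mem_Bc (memS' hPS hy j))
        (T_le_Bc _ _ _ (Submodule.smul_mem _ _ (h.θ_mem (by omega) (memS' hPS hy (j + 1)))))

/-- The component `j` of a class of degree `n`, for `n + j` even. -/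
def ev (n j : ℕ) : P.FF n →ₗ[k] H S A j :=
  if hj : (n + j) % 2 = 0 then
    H.gmap (LinearMap.proj j : (∀ q, C.K q) →ₗ[k] C.K j)
      (fun _ hx => h.ev_Zc hPS hPT hj hx) fun _ _ hx => h.ev_Bc hPS hPT hj hx
  else 0

theorem ev_mk {n j : ℕ} (hj : (n + j) % 2 = 0) {c : ∀ q, C.K q}
    (hc : c ∈ Zc (G.TotS P.S P.hS) (G.TotS P.T P.hT) n) :
    h.ev hPS hPT n j (H.mk c hc) = H.mk (c j) (h.ev_Zc hPS hPT hj hc) := by
  rw [ev, dif_pos hj]
  rfl

theorem ev_odd {n j : ℕ} (hj : (n + j) % 2 = 1) (x : P.FF n) : h.ev hPS hPT n j x = 0 := by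
  rw [ev, dif_neg (by omega)]
  rfl

theorem ev_of_lt {n j : ℕ} (hj : n < j) (x : P.FF n) : h.ev hPS hPT n j x = 0 := by
  rcases Nat.mod_two_eq_zero_or_one (n + j) with h1 | h1
  · obtain ⟨c, hc, rfl⟩ := H.exists_mk x
    rw [h.ev_mk hPS hPT h1, H.mk_eq_zero, (mem_Zc.1 hc).1.2 j hj]
    exact Submodule.zero_mem _
  · exact h.ev_odd hPS hPT h1 x

theorem ev_u (n j : ℕ) (x : P.FF n) :
    h.ev hPS hPT (n + 2) j (P.u n x) = h.ev hPS hPT n j x := by
  rcases Nat.mod_two_eq_zero_or_one (n + j) with h1 | h1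
  · obtain ⟨c, hc, rfl⟩ := H.exists_mk x
    obtain ⟨hc', e⟩ := Circ.PSt.u_mk hc
    rw [e, h.ev_mk hPS hPT (by omega), h.ev_mk hPS hPT h1]
  · rw [h.ev_odd hPS hPT h1, h.ev_odd hPS hPT (by omega)]

theorem ev_V (hP : X.PSt P) (n j : ℕ) (x : P.FF n) :
    h.ev hPS hPT (n + 1) j (hP.VF n x) = 0 := by
  rcases Nat.mod_two_eq_zero_or_one (n + 1 + j) with h1 | h1
  · obtain ⟨c, hc, rfl⟩ := H.exists_mk x
    rw [hP.VF_mk, h.ev_mk hPS hPT h1, H.mk_eq_zero]
    refine T_le_Bc _ _ _ ?_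
    rw [X.Vop_odd (by omega)]
    exact h.A_mem _ _ (memS' hPS (mem_Zc.1 hc).1 j)
  · exact h.ev_odd hPS hPT h1 _

/-- **Injectivity on `S / A`.** -/
theorem V_eq_zero {n : ℕ} (x : h.pr.FF n) (hx : ∀ j ≤ n, h.ev le_rfl le_rfl n j x = 0) :
    h.pst.VF n x = 0 := by
  obtain ⟨c, hc, rfl⟩ := H.exists_mk x
  have hcS := (mem_Zc.1 hc).1
  have hcm : ∀ q, c q ∈ S.S q := fun q => memS hcS q
  rw [h.pst.VF_mk, H.mk_eq_zero]
  have h1 : ∀ q, ∃ y : C.K q, y ∈ S.S q ∧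
      ((q + 1 ≤ n ∧ (n + (q + 1)) % 2 = 0) → c (q + 1) - C.d q y ∈ A.S (q + 1)) ∧
      (¬ (q + 1 ≤ n ∧ (n + (q + 1)) % 2 = 0) → y = 0) := by
    intro q
    by_cases hq : q + 1 ≤ n ∧ (n + (q + 1)) % 2 = 0
    · have h2 := hx (q + 1) hq.1
      rw [h.ev_mk le_rfl le_rfl hq.2, H.mk_eq_zero] at h2
      obtain ⟨y, hy, h3⟩ := mem_Bc_succ.1 h2
      exact ⟨y, hy, fun _ => h3, fun h => absurd hq h⟩
    · exact ⟨0, Submodule.zero_mem _, fun h1 => absurd h1 hq, fun _ => rfl⟩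
  choose y hy h2 h3 using h1
  have hyz : (y : ∀ q, C.K q) ∈ (G.TotS h.pr.S h.pr.hS).S n :=
    ⟨fun q _ => hy q, fun q hq => h3 q (by omega)⟩
  refine mem_Bc_succ.2 ⟨y, hyz, fun q hq => ?_, fun q hq => ?_⟩
  · change X.Vop n c q - G.D n y q ∈ A.S q
    cases q with
    | zero =>
      rw [GCx.D_zero]
      rcases Nat.mod_two_eq_zero_or_one (n + 0) with h4 | h4
      · rw [X.Vop_even h4, h3 0 (by omega), map_zero, sub_zero]
        have h5 := hx 0 (by omega)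
        rw [h.ev_mk le_rfl le_rfl h4, H.mk_eq_zero] at h5
        exact mem_Bc_zero.1 h5
      · rw [X.Vop_odd h4]
        exact Submodule.sub_mem _ (h.A_mem _ _ (hcm 0)) (h.θ_mem (by omega) (hy 0))
    | succ q =>
      rw [GCx.D_succ]
      rcases Nat.mod_two_eq_zero_or_one (n + (q + 1)) with h4 | h4
      · rw [X.Vop_even h4, h3 (q + 1) (by omega), map_zero, smul_zero, add_zero]
        by_cases h5 : q + 1 ≤ n
        · exact h2 q ⟨h5, h4⟩
        · rw [hcS.2 (q + 1) (by omega), h3 q (by omega), map_zero, sub_zero]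
          exact Submodule.zero_mem _
      · rw [X.Vop_odd h4, h3 q (by omega), map_zero, zero_add]
        exact Submodule.sub_mem _ (h.A_mem _ _ (hcm _))
          (Submodule.smul_mem _ _ (h.θ_mem (by omega) (hy _)))
  · change X.Vop n c q - G.D n y q = 0
    have h4 : G.D n y q = 0 := ((G.TotS h.pr.S h.pr.hS).d_mem hyz).2 q hq
    rw [h4, sub_zero, Circ.Vop_zero (hcS.2 q (by omega))]

/-- **Surjectivity on `S / A`**: a class of degree `n` with given even components. -/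
theorem exists_ev {n : ℕ} (y : ∀ j, H S A j) : ∃ x : h.pr.FF n, ∀ j ≤ n, (n + j) % 2 = 0 →
    h.ev le_rfl le_rfl n j x = y j := by
  have h1 : ∀ j, ∃ b : C.K j, ∃ hb : b ∈ Zc S A j, (((j ≤ n ∧ (n + j) % 2 = 0) →
      H.mk b hb = y j) ∧ (¬ (j ≤ n ∧ (n + j) % 2 = 0) → b = 0)) := by
    intro j
    by_cases hj : j ≤ n ∧ (n + j) % 2 = 0
    · obtain ⟨b, hb, e⟩ := H.exists_mk (y j)
      exact ⟨b, hb, fun _ => e, fun h => absurd hj h⟩
    · exact ⟨0, Submodule.zero_mem _, fun h => absurd h hj, fun _ => rfl⟩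
  choose b hb e e0 using h1
  have hbS : ∀ j, b j ∈ S.S j := fun j => (mem_Zc.1 (hb j)).1
  have hbA : ∀ j, C.d j (b j) ∈ A.S (j + 1) := fun j => (mem_Zc.1 (hb j)).2
  -- the cochain `b j + (-1)^j Q b (j + 1)`
  let c : ∀ q, C.K q := fun q => b q + (-1 : k) ^ q • X.Q q (b (q + 1))
  have hcdef : ∀ q, c q = b q + (-1 : k) ^ q • X.Q q (b (q + 1)) := fun q => rfl
  have hcE : ∀ q, (n + q) % 2 = 0 → c q = b q := fun q hq => by
    rw [hcdef, e0 (q + 1) (by omega), map_zero, smul_zero, add_zero]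
  have hcO : ∀ q, (n + q) % 2 = 1 → c q = (-1 : k) ^ q • X.Q q (b (q + 1)) := fun q hq => by
    rw [hcdef, e0 q (by omega), zero_add]
  have hcm : c ∈ (G.TotS h.pr.S h.pr.hS).S n := by
    refine ⟨fun q _ => ?_, fun q hq => ?_⟩
    · exact Submodule.add_mem _ (hbS q) (Submodule.smul_mem _ _ (h.hS.Q_mem _ _ (hbS _)))
    · rw [hcdef, e0 q (by omega), e0 (q + 1) (by omega), map_zero, smul_zero, add_zero]
  have hcZ : c ∈ Zc (G.TotS h.pr.S h.pr.hS) (G.TotS h.pr.T h.pr.hT) n := by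
    refine mem_Zc.2 ⟨hcm, fun q hq => ?_, ((G.TotS h.pr.S h.pr.hS).d_mem hcm).2⟩
    change G.D n c q ∈ A.S q
    cases q with
    | zero =>
      rw [GCx.D_zero]
      rcases Nat.mod_two_eq_zero_or_one (n + 0) with h4 | h4
      · rw [hcE 0 h4, G.θ_odd (by omega), ← X.Q_d0]
        exact h.hA.Q_mem _ _ (hbA 0)
      · exact h.θ_mem (by omega) (memS hcm 0)
    | succ q =>
      rw [GCx.D_succ]
      rcases Nat.mod_two_eq_zero_or_one (n + (q + 1)) with h4 | h4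
      · rw [hcE (q + 1) h4, hcO q (by omega), G.θ_odd (by omega), ← X.Q_d q, map_smul, smul_add,
          ← add_assoc, ← add_smul, pow_succ, mul_neg_one, add_neg_cancel, zero_smul, zero_add]
        exact Submodule.smul_mem _ _ (h.hA.Q_mem _ _ (hbA _))
      · rw [hcE q (by omega)]
        exact Submodule.add_mem _ (hbA q)
          (Submodule.smul_mem _ _ (h.θ_mem (by omega) (memS hcm (q + 1))))
  refine ⟨H.mk c hcZ, fun j hj hj' => ?_⟩
  rw [h.ev_mk le_rfl le_rfl hj', ← e j ⟨hj, hj'⟩]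
  exact mk_congr (hcE j hj') _ _

/-! ### The component maps on `F = ker V` -/

variable (hP : X.PSt P)

/-- **Localisation by components**: `ell e j (V y) = ev e j y`. -/
def ell (e j : ℕ) : hP.F e →ₗ[k] H S A j :=
  h.ev hPS hPT e j ∘ₗ ((-1 : k) ^ (e + 1) • hP.EF e) ∘ₗ (hP.F e).subtype

theorem ell_apply (e j : ℕ) (x : hP.F e) : h.ell hPS hPT hP e j x =
    h.ev hPS hPT e j ((-1 : k) ^ (e + 1) • hP.EF e (x : P.FF (e + 1))) := rfl

theorem ell_V (e j : ℕ) (y : P.FF e) :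
    h.ell hPS hPT hP e j ⟨hP.VF e y, hP.VF_mem e y⟩ = h.ev hPS hPT e j y := by
  rw [ell_apply]
  change h.ev hPS hPT e j ((-1 : k) ^ (e + 1) • X.E hP.tS hP.tT e (X.V hP.tS hP.tT e y)) = _
  cases e with
  | zero =>
    rw [X.E_V_zero]
    simp
  | succ n =>
    have h1 := X.E_V hP.tS hP.tT n y
    rw [sub_eq_iff_eq_add] at h1
    have h2 : h.ev hPS hPT (n + 1) j (X.V hP.tS hP.tT n (X.E hP.tS hP.tT n y)) = 0 :=
      h.ev_V hPS hPT hP n j _
    rw [h1, map_smul, map_add, h2, add_zero, map_smul, smul_smul, ← pow_add,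
      Even.neg_one_pow ⟨n + 1, by ring⟩, one_smul]

/-- every element of `F` is `V y` -/
theorem exists_VF' (e : ℕ) (x : hP.F e) : ∃ y, x = ⟨hP.VF e y, hP.VF_mem e y⟩ := by
  obtain ⟨y, hy⟩ := hP.exists_VF x.2
  exact ⟨y, Subtype.ext hy.symm⟩

theorem ell_odd {e j : ℕ} (hj : (e + j) % 2 = 1) (x : hP.F e) :
    h.ell hPS hPT hP e j x = 0 := h.ev_odd hPS hPT hj _

theorem ell_of_lt {e j : ℕ} (hj : e < j) (x : hP.F e) :
    h.ell hPS hPT hP e j x = 0 := h.ev_of_lt hPS hPT hj _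

theorem ell_u (e j : ℕ) (x : hP.F e) :
    h.ell hPS hPT hP (e + 2) j (hP.uF e x) = h.ell hPS hPT hP e j x := by
  obtain ⟨y, rfl⟩ := exists_VF' hP e x
  rw [h.ell_V]
  have e1 : hP.uF e ⟨hP.VF e y, hP.VF_mem e y⟩ =
      ⟨hP.VF (e + 2) (P.u e y), hP.VF_mem (e + 2) (P.u e y)⟩ :=
    Subtype.ext (hP.VF_u e y).symm
  rw [e1, h.ell_V, ev_u]

/-- **Naturality**, on `FF`. -/
theorem ev_mapF {P' : G'.Pair} {X' : Circ G'} {S' A' : Sub C'} (h' : Tri4 X' S' A')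
    (hPS' : P'.S ≤ S') (hPT' : P'.T ≤ A') {φ : ∀ n, C.K n →ₗ[k] C'.K n}
    (hφ : IsGMor P P' φ) (hφ' : IsMor S A S' A' φ) (n j : ℕ) (x : P.FF n) :
    h'.ev hPS' hPT' n j (hφ.mapF n x) = Hmap hφ' j (h.ev hPS hPT n j x) := by
  rcases Nat.mod_two_eq_zero_or_one (n + j) with h1 | h1
  · obtain ⟨c, hc, rfl⟩ := H.exists_mk x
    rw [hφ.mapF_mk, h.ev_mk hPS hPT h1, h'.ev_mk hPS' hPT' h1]
    rfl
  · rw [h.ev_odd hPS hPT h1, h'.ev_odd hPS' hPT' h1, map_zero]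

/-- **Naturality** of the localisation. -/
theorem ell_mapF {P' : G'.Pair} {X' : Circ G'} {S' A' : Sub C'} (h' : Tri4 X' S' A')
    (hPS' : P'.S ≤ S') (hPT' : P'.T ≤ A') (hP' : X'.PSt P') {φ : ∀ n, C.K n →ₗ[k] C'.K n}
    (hφ : IsGMor P P' φ) (hφ' : IsMor S A S' A' φ)
    (hA : ∀ {n x}, x ∈ P.S.S n → X'.A n (φ n x) - φ n (X.A n x) ∈ P'.T.S n) (e j : ℕ)
    (x : hP.F e) :
    h'.ell hPS' hPT' hP' e j (Circ.PSt.mapF hP hP' hφ hA e x) =
      Hmap hφ' j (h.ell hPS hPT hP e j x) := by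
  obtain ⟨y, rfl⟩ := exists_VF' hP e x
  rw [h.ell_V, ← h.ev_mapF hPS hPT h' hPS' hPT' hφ hφ', ← h'.ell_V hPS' hPT' hP']
  congr 1
  exact Subtype.ext (Circ.PSt.VF_mapF hP hP' hφ hA e y).symm

/-- **Naturality** for the restrictions. -/
theorem ell_resF {Q : G.Pair} {S' A' : Sub C} (h' : Tri4 X S' A')
    (hQS : Q.S ≤ S') (hQT : Q.T ≤ A') (hQ : X.PSt Q) (i : P.S ≤ Q.S) (i' : P.T ≤ Q.T)
    (l : S ≤ S') (l' : A ≤ A') (e j : ℕ) (x : hP.F e) :
    h'.ell hQS hQT hQ e j (Circ.PSt.resF hP hQ i i' e x) =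
      Hinc l l' j (h.ell hPS hPT hP e j x) :=
  h.ell_mapF hPS hPT hP h' hQS hQT hQ (IsGMor.id_of_le i i') (IsMor.id_of_le l l')
    (fun {n x} _ => Circ.PSt.comm_id n x) e j x

/-! ### Joint injectivity and surjectivity -/

/-- Joint injectivity in high degrees. -/
theorem ell_inj (h : Tri4 X P.S A) (hPT : P.T ≤ A) (hP : X.PSt P)
    (ht : UTors G A P.T h.hA.toStable P.hT) {J : ℕ} (hJ : ∀ j ≥ J, Subsingleton (P.HH j)) {e : ℕ}
    (he : J ≤ e + 1) (x : hP.F e) (hx : ∀ j, h.ell le_rfl hPT hP e j x = 0) : x = 0 := by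
  obtain ⟨y, rfl⟩ := exists_VF' hP e x
  have h1 : ∀ j, h.ev le_rfl hPT e j y = 0 := fun j => by rw [← h.ell_V le_rfl hPT hP]; exact hx j
  have h2 : h.pst.VF e (GCx.Pair.resF (P := P) (P' := h.pr) le_rfl hPT e y) = 0 := by
    refine h.V_eq_zero _ fun j _ => ?_
    rw [← h1 j]
    rcases Nat.mod_two_eq_zero_or_one (e + j) with h3 | h3
    · obtain ⟨c, hc, rfl⟩ := H.exists_mk y
      rw [h.ev_mk le_rfl hPT h3]
      exact h.ev_mk (P := h.pr) le_rfl le_rfl h3 _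
    · rw [h.ev_odd le_rfl hPT h3]
      exact h.ev_odd (P := h.pr) le_rfl le_rfl h3 _
  rw [Circ.PSt.VF_resF hP h.pst] at h2
  refine Subtype.ext (resF_injective_high P (hA := h.hA.toStable) hPT h.le ht hJ he ?_)
  change H609.resF P.hS h.hA.toStable P.hT hPT (e + 1) (hP.VF e y) = _
  rw [ZeroMemClass.coe_zero, map_zero]
  exact h2

theorem ell_resA (h : Tri4 X P.S A) (hPT : P.T ≤ A) (n j : ℕ) (x : P.FF n) :
    h.ev (P := h.pr) le_rfl le_rfl n j (GCx.Pair.resF (P := P) (P' := h.pr) le_rfl hPT n x) =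
      h.ev le_rfl hPT n j x := by
  rcases Nat.mod_two_eq_zero_or_one (n + j) with h3 | h3
  · obtain ⟨c, hc, rfl⟩ := H.exists_mk x
    rw [h.ev_mk le_rfl hPT h3]
    exact h.ev_mk (P := h.pr) le_rfl le_rfl h3 _
  · rw [h.ev_odd le_rfl hPT h3]
    exact h.ev_odd (P := h.pr) le_rfl le_rfl h3 _

/-- one component can be prescribed, in high degrees -/
theorem exists_single (h : Tri4 X P.S A) (hPT : P.T ≤ A) (hP : X.PSt P)
    (ht : UTors G A P.T h.hA.toStable P.hT) (i : ℕ) [Module.Finite k (H P.S A i)] :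
    ∃ N, ∀ e ≥ N, (e + i) % 2 = 0 → ∀ a : H P.S A i, ∃ x : hP.F e,
      h.ell le_rfl hPT hP e i x = a ∧ ∀ j, j ≠ i → h.ell le_rfl hPT hP e j x = 0 := by
  classical
  -- one class
  have one : ∀ a : H P.S A i, ∃ N, ∀ e ≥ N, (e + i) % 2 = 0 → ∃ x : hP.F e,
      h.ell le_rfl hPT hP e i x = a ∧ ∀ j, j ≠ i → h.ell le_rfl hPT hP e j x = 0 := by
    intro a
    obtain ⟨z, hz⟩ := h.exists_ev (n := i) (Pi.single i a)
    obtain ⟨m₀, hm⟩ := exists_lift (hS := P.hS) (hA := h.hA.toStable) (hT := P.hT) hPT h.le ht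
      (x := z)
    refine ⟨i + 2 * m₀, fun e he hei => ?_⟩
    obtain ⟨m, rfl⟩ : ∃ m, e = i + 2 * m := ⟨(e - i) / 2, by omega⟩
    obtain ⟨y, hy⟩ := hm m (by omega)
    have key : ∀ j, h.ev le_rfl hPT (i + 2 * m) j y = h.ev (P := h.pr) le_rfl le_rfl i j z := by
      intro j
      rw [← ell_resA h hPT]
      change h.ev (P := h.pr) le_rfl le_rfl (i + 2 * m) j
        (H609.resF P.hS h.hA.toStable P.hT hPT (i + 2 * m) y) = _
      rw [hy]
      obtain ⟨c, hc, rfl⟩ := H.exists_mk z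
      rw [umap_mk]
      rcases Nat.mod_two_eq_zero_or_one (i + j) with h3 | h3
      · rw [h.ev_mk (P := h.pr) le_rfl le_rfl h3]
        exact h.ev_mk (P := h.pr) le_rfl le_rfl (by omega) _
      · rw [h.ev_odd (P := h.pr) le_rfl le_rfl h3]
        exact h.ev_odd (P := h.pr) le_rfl le_rfl (by omega) _
    refine ⟨⟨hP.VF _ y, hP.VF_mem _ y⟩, ?_, fun j hj => ?_⟩
    · rw [h.ell_V, key, hz i le_rfl (by omega), Pi.single_eq_same]
    · rw [h.ell_V, key]
      rcases Nat.mod_two_eq_zero_or_one (i + j) with h3 | h3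
      · rcases Nat.lt_or_ge i j with h4 | h4
        · exact h.ev_of_lt (P := h.pr) le_rfl le_rfl h4 _
        · rw [hz j h4 h3, Pi.single_eq_of_ne hj]
      · exact h.ev_odd (P := h.pr) le_rfl le_rfl h3 _
  obtain ⟨s, hs⟩ := Module.Finite.fg_top (R := k) (M := H P.S A i)
  choose f hf using one
  refine ⟨s.sup f, fun e he hei a => ?_⟩
  let R : Submodule k (H P.S A i) :=
    { carrier := {a | ∃ x : hP.F e, h.ell le_rfl hPT hP e i x = a ∧
        ∀ j, j ≠ i → h.ell le_rfl hPT hP e j x = 0}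
      add_mem' := by
        rintro a b ⟨x, hx, hx'⟩ ⟨y, hy, hy'⟩
        exact ⟨x + y, by rw [map_add, hx, hy], fun j hj => by
          rw [map_add, hx' j hj, hy' j hj, add_zero]⟩
      zero_mem' := ⟨0, map_zero _, fun j _ => map_zero _⟩
      smul_mem' := by
        rintro r a ⟨x, hx, hx'⟩
        exact ⟨r • x, by rw [map_smul, hx], fun j hj => by rw [map_smul, hx' j hj, smul_zero]⟩ }
  have h1 : (⊤ : Submodule k (H P.S A i)) ≤ R := by
    rw [← hs, Submodule.span_le]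
    intro a ha
    exact hf a e ((Finset.le_sup (f := f) ha).trans he) hei
  exact h1 (Submodule.mem_top (x := a))

/-- Joint surjectivity in high degrees. -/
theorem ell_surj (h : Tri4 X P.S A) (hPT : P.T ≤ A) (hP : X.PSt P)
    (ht : UTors G A P.T h.hA.toStable P.hT) (hf : ∀ j, Module.Finite k (H P.S A j)) {J : ℕ}
    (hJ : ∀ j ≥ J, Subsingleton (H P.S A j)) :
    ∃ N, ∀ e ≥ N, ∀ y : ∀ j, H P.S A j, (∀ j, (e + j) % 2 = 1 → y j = 0) → ∃ x : hP.F e,
      ∀ j, h.ell le_rfl hPT hP e j x = y j := by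
  classical
  choose N hN using fun i => exists_single h hPT hP ht i
  refine ⟨(Finset.range J).sup N, fun e he y hy => ?_⟩
  have h1 : ∀ i, ∃ x : hP.F e, i < J → h.ell le_rfl hPT hP e i x = y i ∧
      ∀ j, j ≠ i → h.ell le_rfl hPT hP e j x = 0 := by
    intro i
    by_cases hi : i < J
    · rcases Nat.mod_two_eq_zero_or_one (e + i) with h3 | h3
      · obtain ⟨x, hx⟩ := hN i e ((Finset.le_sup (Finset.mem_range.2 hi)).trans he) h3 (y i)
        exact ⟨x, fun _ => hx⟩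
      · exact ⟨0, fun _ => ⟨by rw [map_zero, hy i h3], fun j _ => map_zero _⟩⟩
    · exact ⟨0, fun h => absurd h hi⟩
  choose x hx using h1
  refine ⟨∑ i ∈ Finset.range J, x i, fun j => ?_⟩
  rw [map_sum]
  rcases Nat.lt_or_ge j J with hj | hj
  · rw [Finset.sum_eq_single_of_mem j (Finset.mem_range.2 hj) fun i hi hij =>
      (hx i (Finset.mem_range.1 hi)).2 j hij.symm]
    exact (hx j hj).1
  · have := hJ j hj
    exact Subsingleton.elim _ _

/-- **The structure `Loc`** with values in the cohomology of the fixed set. -/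
noncomputable def loc0 (h : Tri4 X P.S A) (hPT : P.T ≤ A) (hP : X.PSt P)
    (ht : UTors G A P.T h.hA.toStable P.hT) (htop : ∃ J, ∀ j ≥ J, Subsingleton (P.HH j))
    (hf : ∀ j, Module.Finite k (H P.S A j)) (htop' : ∃ J, ∀ j ≥ J, Subsingleton (H P.S A j)) :
    T695.Loc k (fun n => hP.F n) (fun j => H P.S A j) hP.gys.u where
  ℓ e j := h.ell le_rfl hPT hP e j
  par _ _ hj x := h.ell_odd le_rfl hPT hP hj x
  ℓ_u e j x := h.ell_u le_rfl hPT hP e j x
  inj := by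
    obtain ⟨J, hJ⟩ := htop
    exact ⟨J, fun e he x hx => ell_inj h hPT hP ht hJ (by omega) x hx⟩
  surj := by
    obtain ⟨J, hJ⟩ := htop'
    exact ell_surj h hPT hP ht hf hJ

end Tri4

/-- transport of the structure `Loc` along isomorphisms of the target -/
def locCongr {F H' H'' : ℕ → Type}
    [∀ n, AddCommGroup (F n)] [∀ n, Module k (F n)]
    [∀ n, AddCommGroup (H' n)] [∀ n, Module k (H' n)]
    [∀ n, AddCommGroup (H'' n)] [∀ n, Module k (H'' n)] {u : ∀ n, F n →ₗ[k] F (n + 2)}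
    (L : T695.Loc k F H' u) (φ : ∀ j, H' j →ₗ[k] H'' j) (hφ : ∀ j, Function.Bijective (φ j)) :
    T695.Loc k F H'' u where
  ℓ e j := φ j ∘ₗ L.ℓ e j
  par e j hj x := by rw [LinearMap.comp_apply, L.par e j hj x, map_zero]
  ℓ_u e j x := by rw [LinearMap.comp_apply, LinearMap.comp_apply, L.ℓ_u]
  inj := by
    obtain ⟨N, hN⟩ := L.inj
    exact ⟨N, fun e he x hx => hN e he x fun j => (hφ j).1 (by rw [map_zero]; exact hx j)⟩
  surj := by
    obtain ⟨N, hN⟩ := L.surj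
    refine ⟨N, fun e he y hy => ?_⟩
    choose z hz using fun j => (hφ j).2 (y j)
    obtain ⟨x, hx⟩ := hN e he z fun j hj => (hφ j).1 (by rw [hz j, hy j hj, map_zero])
    exact ⟨x, fun j => by rw [LinearMap.comp_apply, hx j, hz j]⟩

theorem locCongr_ℓ {F H' H'' : ℕ → Type}
    [∀ n, AddCommGroup (F n)] [∀ n, Module k (F n)]
    [∀ n, AddCommGroup (H' n)] [∀ n, Module k (H' n)]
    [∀ n, AddCommGroup (H'' n)] [∀ n, Module k (H'' n)] {u : ∀ n, F n →ₗ[k] F (n + 2)}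
    (L : T695.Loc k F H' u) (φ : ∀ j, H' j →ₗ[k] H'' j) (hφ : ∀ j, Function.Bijective (φ j))
    (e j : ℕ) (x : F e) : (locCongr L φ hφ).ℓ e j x = φ j (L.ℓ e j x) := rfl

end Vale.Agent.P216.H941S
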