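import Vale.Agent.P216.H941S.Fix4
import Vale.Agent.P216.S4.Lev4
import Vale.Agent.P216.H773.Inst4

/-!
# Localisation at `p = 2` for a `GSys` with real rotations, all hypotheses discharged

`R : RotS S`, `W : GSys.Two S`, `hsh : S.Sheet`, `k` of characteristic two, `hm = S4.ord_four h2`,
`D = R.circM k hm`.  Levels: `2 * q = s`, `2 * r = t`.

* `R.L4` : `T695.Loc k (F t) (H r) u`, `R.L4_res` : naturality in `t`;
* `R.locR4` : `F^e(X_t, X_s) → H^j(X_r, X_q)`, `R.locR4_j`, `R.locR4_mapF`.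
-/

open Set Topology
open Module (finrank)

namespace Vale.Agent.P216.RotS

open AS H609 Loc H941 H941S DV S4 GSys.Two

variable {Λ : Type} [MetricSpace Λ] {S : GSys Λ} (R : RotS S) (W : S.Two) (hsh : S.Sheet)
  (k : Type) [Field k] (h2 : (2 : k) = 0)

theorem R_rot4 (a : ℝ) (x : Λ) : R.R a (S.rot 4 x) = S.rot 4 (R.R a x) := by
  rw [← R.rot 4 (by norm_num), ← R.rot 4 (by norm_num), R.add, R.add, add_comm]

/-- the rotations preserve the fixed set -/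
theorem R_F2 (a : ℝ) (t : ℝ) : MapsTo (R.R a) (F2 S t) (F2 S t) := fun x hx => by
  refine ⟨R.mem a t hx.1, ?_⟩
  have h1 : S.rot 4 (S.rot 4 x) = x := hx.2
  change S.rot 4 (S.rot 4 (R.R a x)) = R.R a x
  rw [← R.R_rot4, ← R.R_rot4, h1]

/-- the circle data -/
noncomputable abbrev D4 : Circ (S.sym k 4 (by norm_num)).gcx := R.circM k (ord_four h2)

theorem D4_A (n : ℕ) (x : (ASK Λ k).K n) :
    (R.D4 k h2).A n x = ∑ i ∈ Finset.range 4, (i : k) • ((Y4 S k).gK n ^ i) x :=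
  R.circM_A k (ord_four h2) n x

theorem st_S4 {s t : ℝ} (h : s ≤ t) : (R.D4 k h2).St (S4 S k t s) :=
  S4.st_Zr (S.sym k 4 (by norm_num)) (ord_four h2) (R.isArc k 4 (by norm_num))
    (S.good k 4 (by norm_num) t) (R.arcGood k 4 (by norm_num) t)
    ((F2_sub S s).trans (S.mono s t h))
    (Sym.Fix2_g (Y := Y4 S k) (S.rot_mem 4 s)) fun r _ _ hx => R.R_F2 _ s hx

theorem st_A4 (t : ℝ) : (R.D4 k h2).St (A4 S k t) := R.st_S4 k h2 le_rfl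

/-- the pair of `X t` -/
theorem pst4 (t : ℝ) : (R.D4 k h2).PSt (S.P k 4 (by norm_num) t) := R.pstM k (ord_four h2) t

/-- the pair of `(X t, X s)` -/
theorem pstQ4 {s t : ℝ} (h : s ≤ t) : (R.D4 k h2).PSt (S.Q k 4 (by norm_num) h) :=
  R.pstQM k (ord_four h2) h

include W hsh in
theorem uTors_A4 (t : ℝ) : UTors (S.sym k 4 (by norm_num)).gcx (A4 S k t) (S.CT k t)
    (R.st_A4 k h2 t).toStable (S.P k 4 (by norm_num) t).hT :=
  GSys.uTors4 k (by norm_num) W.rot42 hsh t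

/-- **Localisation at `p = 2`.** -/
noncomputable def L4 {r t : ℝ} (hr : 2 * r = t) (h0 : 0 ≤ r)
    (hfin : ∀ j, Module.Finite k (S.V k r j))
    (htop : ∃ N, ∀ j ≥ N, Subsingleton (S.V k t j))
    (htop' : ∃ N, ∀ j ≥ N, Subsingleton (S.V k r j)) :
    T695.Loc k (fun n => R.FM k (ord_four h2) t n) (fun j => S.V k r j)
      (R.gysM k (ord_four h2) t).u :=
  W.loc4 h2 (R.D4_A k h2) hr h0 (R.pst4 k h2 t) (R.st_A4 k h2 t) (R.uTors_A4 W hsh k h2 t)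
    hfin htop htop'

/-- **Naturality** in the level. -/
theorem L4_res {q r s t : ℝ} (hq : 2 * q = s) (hr : 2 * r = t) (h0 : 0 ≤ q) (h0' : 0 ≤ r)
    (h : q ≤ r) (h' : s ≤ t)
    (hfin : ∀ j, Module.Finite k (S.V k r j))
    (htop : ∃ N, ∀ j ≥ N, Subsingleton (S.V k t j))
    (htop' : ∃ N, ∀ j ≥ N, Subsingleton (S.V k r j))
    (hfins : ∀ j, Module.Finite k (S.V k q j))
    (htops : ∃ N, ∀ j ≥ N, Subsingleton (S.V k s j))
    (htops' : ∃ N, ∀ j ≥ N, Subsingleton (S.V k q j)) (e j : ℕ)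
    (x : R.FM k (ord_four h2) t e) :
    (R.L4 W hsh k h2 hq h0 hfins htops htops').ℓ e j ((R.TFM k (ord_four h2) e).ρ s t h' x) =
      (TH S k j).ρ q r h ((R.L4 W hsh k h2 hr h0' hfin htop htop').ℓ e j x) :=
  W.loc4_res h2 (R.D4_A k h2) hq hr h0 h h' (R.pst4 k h2 t) (R.st_A4 k h2 t)
    (R.uTors_A4 W hsh k h2 t) (R.pst4 k h2 s) (R.st_A4 k h2 s) (R.uTors_A4 W hsh k h2 s)
    hfin htop htop' hfins htops htops' e j x

/-- **The relative localisation** `F^e(X_t, X_s) → H^j(X_r, X_q)`. -/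
noncomputable def locR4 {q r s t : ℝ} (hq : 2 * q = s) (hr : 2 * r = t) (h0 : 0 ≤ q) (h : q ≤ r)
    (h' : s ≤ t) (e j : ℕ) : (R.pstQ4 k h2 h').F e →ₗ[k] (S.Q k 4 (by norm_num) h).HH j :=
  W.locR h2 (R.D4_A k h2) hq hr h0 h h' (R.st_S4 k h2 h') (R.st_A4 k h2 t) (R.pstQ4 k h2 h') e j

/-- the field `ℓ_j` of `Loc2` -/
theorem locR4_j {q r s t : ℝ} (hq : 2 * q = s) (hr : 2 * r = t) (h0 : 0 ≤ q) (h0' : 0 ≤ r)
    (h : q ≤ r) (h' : s ≤ t) (hfin : ∀ j, Module.Finite k (S.V k r j))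
    (htop : ∃ N, ∀ j ≥ N, Subsingleton (S.V k t j))
    (htop' : ∃ N, ∀ j ≥ N, Subsingleton (S.V k r j)) (e j : ℕ) (x : (R.pstQ4 k h2 h').F e) :
    (R.L4 W hsh k h2 hr h0' hfin htop htop').ℓ e j
        (Circ.PSt.resF (R.pstQ4 k h2 h') (R.pst4 k h2 t) Zr_le_Cc le_rfl e x) =
      Hinc Zr_le_Cc le_rfl j (R.locR4 W k h2 hq hr h0 h h' e j x) :=
  W.locR_j h2 (R.D4_A k h2) hq hr h0 h h' (R.st_S4 k h2 h') (R.st_A4 k h2 t) (R.pstQ4 k h2 h')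
    (R.pst4 k h2 t) (R.uTors_A4 W hsh k h2 t) hfin htop htop' e j x

/-- the field `ℓ_e` of `Loc2` -/
theorem locR4_mapF {q r s t : ℝ} (hq : 2 * q = s) (hr : 2 * r = t) (h0 : 0 ≤ q) (h : q ≤ r)
    (h' : s ≤ t) {φ : ∀ n, (ASK Λ k).K n →ₗ[k] (ASK Λ k).K n}
    (hφ : IsGMor (S.Q k 4 (by norm_num) h') (S.Q k 4 (by norm_num) h') φ)
    (hφ' : IsMor (S4 S k t s) (A4 S k t) (S4 S k t s) (A4 S k t) φ)
    (hAφ : ∀ {n x}, x ∈ (S.Q k 4 (by norm_num) h').S.S n →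
      (R.D4 k h2).A n (φ n x) - φ n ((R.D4 k h2).A n x) ∈ (S.Q k 4 (by norm_num) h').T.S n)
    (j : ℕ) {ε : (S.Q k 4 (by norm_num) h).HH j →ₗ[k] (S.Q k 4 (by norm_num) h).HH j}
    (hε : ∀ y : H (S4 S k t s) (A4 S k t) j, W.fixMapR k hq hr h0 h j (Hmap hφ' j y) =
      ε (W.fixMapR k hq hr h0 h j y)) (e : ℕ) (x : (R.pstQ4 k h2 h').F e) :
    R.locR4 W k h2 hq hr h0 h h' e j
        (Circ.PSt.mapF (R.pstQ4 k h2 h') (R.pstQ4 k h2 h') hφ hAφ e x) =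
      ε (R.locR4 W k h2 hq hr h0 h h' e j x) :=
  W.locR_mapF h2 (R.D4_A k h2) hq hr h0 h h' (R.st_S4 k h2 h') (R.st_A4 k h2 t)
    (R.pstQ4 k h2 h') hφ hφ' hAφ j hε e x

end Vale.Agent.P216.RotS
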